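import Mathlib

/-! Sums of unit fractions: basic closure properties, denominators bound, distinctness. -/

namespace Vale.Agent.P012

open Finset

/-- reciprocal sum of a multiset of naturals -/
def rsum (l : Multiset ℕ) : ℚ := (l.map (fun n : ℕ => (1 : ℚ) / n)).sum

@[simp] lemma rsum_zero : rsum 0 = 0 := by simp [rsum]

@[simp] lemma rsum_cons (n : ℕ) (l : Multiset ℕ) : rsum (n ::ₘ l) = 1 / n + rsum l := by
  simp [rsum]

@[simp] lemma rsum_add (l l' : Multiset ℕ) : rsum (l + l') = rsum l + rsum l' := by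
  simp [rsum]

lemma rsum_nonneg (l : Multiset ℕ) : 0 ≤ rsum l := by
  induction l using Multiset.induction_on with
  | empty => simp
  | cons n l ih => rw [rsum_cons]; positivity

/-- `x` is a sum of at most `k` unit fractions, repetitions allowed -/
def UF (k : ℕ) (x : ℚ) : Prop :=
  ∃ l : Multiset ℕ, l.card ≤ k ∧ (∀ n ∈ l, 0 < n) ∧ rsum l = x

lemma UF.zero (k : ℕ) : UF k 0 := ⟨0, by simp, by simp, by simp⟩

lemma UF.mono {k k' : ℕ} {x : ℚ} (h : UF k x) (hk : k ≤ k') : UF k' x := by
  obtain ⟨l, h1, h2, h3⟩ := h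
  exact ⟨l, h1.trans hk, h2, h3⟩

lemma UF.add {k k' : ℕ} {x y : ℚ} (h : UF k x) (h' : UF k' y) : UF (k + k') (x + y) := by
  obtain ⟨l, h1, h2, h3⟩ := h
  obtain ⟨l', h1', h2', h3'⟩ := h'
  refine ⟨l + l', by simp; omega, ?_, by simp [h3, h3']⟩
  intro n hn
  rcases Multiset.mem_add.1 hn with h | h
  · exact h2 n h
  · exact h2' n h

lemma UF.unit {n : ℕ} (hn : 0 < n) : UF 1 (1 / n) :=
  ⟨n ::ₘ 0, by simp, by simpa using hn, by rw [rsum_cons]; simp⟩

lemma rsum_map_mul (l : Multiset ℕ) (m : ℕ) : rsum (l.map (fun n => n * m)) = rsum l / m := by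
  induction l using Multiset.induction_on with
  | empty => simp
  | cons n l ih =>
    rw [Multiset.map_cons, rsum_cons, rsum_cons, ih]
    push_cast
    rw [add_div, div_div]

lemma UF.div {k : ℕ} {x : ℚ} (h : UF k x) {m : ℕ} (hm : 0 < m) : UF k (x / m) := by
  obtain ⟨l, h1, h2, h3⟩ := h
  refine ⟨l.map (fun n => n * m), by simpa using h1, ?_, by rw [rsum_map_mul, h3]⟩
  intro n hn
  obtain ⟨n', hn', rfl⟩ := Multiset.mem_map.1 hn
  exact Nat.mul_pos (h2 n' hn') hm

lemma UF.of_dvd {d n : ℕ} (hn : 0 < n) (h : d ∣ n) : UF 1 ((d : ℚ) / n) := by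
  obtain ⟨c, rfl⟩ := h
  have hc : 0 < c := Nat.pos_of_mul_pos_left hn
  have hd : 0 < d := Nat.pos_of_mul_pos_right hn
  have : (d : ℚ) / ((d * c : ℕ) : ℚ) = 1 / c := by
    push_cast
    field_simp
  rw [this]
  exact UF.unit hc

lemma UF.congr {k : ℕ} {x y : ℚ} (h : UF k x) (e : x = y) : UF k y := e ▸ h

/-- binary expansion -/
lemma UF.binary (e : ℕ) : ∀ R : ℕ, R < 2 ^ e → UF e ((R : ℚ) / ((2 ^ e : ℕ) : ℚ)) := by
  induction e with
  | zero =>
    intro R hR
    have : R = 0 := by simpa using hR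
    subst this
    simpa using UF.zero 0
  | succ e ih =>
    intro R hR
    have h1 := ih (R / 2) (by rw [pow_succ] at hR; omega)
    rcases Nat.even_or_odd' R with ⟨c, rfl | rfl⟩
    · have hc : 2 * c / 2 = c := by omega
      rw [hc] at h1
      refine (h1.mono (Nat.le_succ e)).congr ?_
      push_cast
      field_simp
      ring
    · have hc : (2 * c + 1) / 2 = c := by omega
      rw [hc] at h1
      have h2 : UF 1 (1 / ((2 ^ (e + 1) : ℕ) : ℚ)) := UF.unit (by positivity)
      refine (h1.add h2).congr ?_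
      push_cast
      field_simp
      ring

lemma rsum_le_of_min (l : Multiset ℕ) (n₀ : ℕ) (h0 : 0 < n₀) (h : ∀ n ∈ l, n₀ ≤ n) :
    rsum l ≤ l.card / n₀ := by
  induction l using Multiset.induction_on with
  | empty => simp
  | cons n l ih =>
    rw [rsum_cons, Multiset.card_cons]
    have h1 := ih (fun m hm => h m (Multiset.mem_cons_of_mem hm))
    have h2 : (1 : ℚ) / n ≤ 1 / n₀ := by
      apply one_div_le_one_div_of_le
      · exact_mod_cast h0
      · exact_mod_cast h n (Multiset.mem_cons_self n l)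
    push_cast
    rw [add_div]
    linarith

/-- denominators of a representation are doubly exponentially bounded -/
lemma den_bound (K : ℕ) (k : ℕ) : ∀ (l : Multiset ℕ), l.card = k → k ≤ K → (∀ n ∈ l, 0 < n) →
    ∀ v : ℕ, 0 < v → (∃ u : ℤ, (v : ℚ) * rsum l = u) → ∀ n ∈ l, n ≤ (K * v) ^ (2 ^ k) := by
  induction k with
  | zero =>
    intro l hl _ _ v _ _ n hn
    rw [Multiset.card_eq_zero] at hl
    simp [hl] at hn
  | succ k ih =>
    intro l hl hK hpos v hv ⟨u, hu⟩ n hn
    have hne : l.toFinset.Nonempty := ⟨n, by simpa using hn⟩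
    obtain ⟨n₀, hmem, hmin⟩ : ∃ n₀ ∈ l, ∀ m ∈ l, n₀ ≤ m :=
      ⟨l.toFinset.min' hne, by simpa using l.toFinset.min'_mem hne,
        fun m hm => l.toFinset.min'_le m (by simpa using hm)⟩
    clear hne
    obtain ⟨l', rfl⟩ := Multiset.exists_cons_of_mem hmem
    have h0 : 0 < n₀ := hpos n₀ hmem
    have h0q : (0 : ℚ) < n₀ := by exact_mod_cast h0
    have hvq : (0 : ℚ) < v := by exact_mod_cast hv
    have hle := rsum_le_of_min _ n₀ h0 hmin
    have hpos' : 0 < rsum (n₀ ::ₘ l') := by
      rw [rsum_cons]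
      have := rsum_nonneg l'
      positivity
    have hu0 : (0 : ℚ) < u := by rw [← hu]; positivity
    have hu1 : (1 : ℚ) ≤ u := by
      have : (0 : ℤ) < u := by exact_mod_cast hu0
      exact_mod_cast this
    have hn0 : n₀ ≤ K * v := by
      rw [hl, le_div_iff₀ h0q] at hle
      have : (n₀ : ℚ) ≤ ((k + 1 : ℕ) : ℚ) * v := by nlinarith
      have h2 : n₀ ≤ (k + 1) * v := by exact_mod_cast this
      exact h2.trans (Nat.mul_le_mul_right v hK)
    have hKv : 1 ≤ K * v := h0.trans_le hn0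
    rcases Multiset.mem_cons.1 hn with rfl | hn'
    · exact hn0.trans (Nat.le_self_pow (by positivity) _)
    · have hc : l'.card = k := by simpa using hl
      have := ih l' hc (by omega) (fun m hm => hpos m (Multiset.mem_cons_of_mem hm)) (v * n₀)
        (Nat.mul_pos hv h0) ⟨u * n₀ - v, by
          rw [rsum_cons] at hu
          push_cast
          rw [← hu]
          field_simp
          ring⟩ n hn'
      refine this.trans ?_
      rw [pow_succ, mul_comm (2 ^ k) 2, pow_mul]
      apply Nat.pow_le_pow_left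
      rw [← mul_assoc, sq]
      exact Nat.mul_le_mul_left _ hn0

lemma exists_dup (l : Multiset ℕ) (h : ¬ l.Nodup) : ∃ n l', l = n ::ₘ n ::ₘ l' := by
  rw [Multiset.nodup_iff_count_le_one] at h
  push Not at h
  obtain ⟨n, hn⟩ := h
  have h2 : Multiset.replicate 2 n ≤ l := Multiset.le_count_iff_replicate_le.1 hn
  obtain ⟨l', rfl⟩ := Multiset.le_iff_exists_add.1 h2
  exact ⟨n, l', by simp [Multiset.replicate_succ]⟩

/-- a repeated denominator can be split, increasing the sum of denominators -/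
lemma improve (l : Multiset ℕ) (hpos : ∀ n ∈ l, 0 < n) (h1 : rsum l < 1) (h : ¬ l.Nodup) :
    ∃ l' : Multiset ℕ, l'.card = l.card ∧ (∀ n ∈ l', 0 < n) ∧ rsum l' = rsum l ∧
      l.sum < l'.sum := by
  obtain ⟨n, l₀, rfl⟩ := exists_dup l h
  have hn : 0 < n := hpos n (by simp)
  have hpos₀ : ∀ m ∈ l₀, 0 < m := fun m hm => hpos m (by simp [hm])
  have hnn := rsum_nonneg l₀
  have hn3 : 3 ≤ n := by
    by_contra hlt
    have : n = 1 ∨ n = 2 := by omega
    rcases this with rfl | rfl
    · simp only [rsum_cons] at h1; norm_num at h1; linarith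
    · simp only [rsum_cons] at h1; norm_num at h1; linarith
  rcases Nat.even_or_odd' n with ⟨m, rfl | rfl⟩
  · have hm : 2 ≤ m := by omega
    refine ⟨(m + 1) ::ₘ (m * (m + 1)) ::ₘ l₀, by simp, ?_, ?_, ?_⟩
    · intro x hx
      simp only [Multiset.mem_cons] at hx
      rcases hx with rfl | rfl | hx
      · omega
      · positivity
      · exact hpos₀ x hx
    · simp only [rsum_cons]
      have : (0 : ℚ) < m := by exact_mod_cast (by omega : 0 < m)
      push_cast
      field_simp
      ring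
    · simp only [Multiset.sum_cons]
      nlinarith
  · have hm : 1 ≤ m := by omega
    refine ⟨(m + 1) ::ₘ ((2 * m + 1) * (m + 1)) ::ₘ l₀, by simp, ?_, ?_, ?_⟩
    · intro x hx
      simp only [Multiset.mem_cons] at hx
      rcases hx with rfl | rfl | hx
      · omega
      · positivity
      · exact hpos₀ x hx
    · simp only [rsum_cons]
      push_cast
      field_simp
      ring
    · simp only [Multiset.sum_cons]
      nlinarith

lemma UF.distinct {k : ℕ} {x : ℚ} (h : UF k x) (hx : x < 1) :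
    ∃ S : Finset ℕ, S.card ≤ k ∧ (∀ n ∈ S, 2 ≤ n) ∧ ∑ n ∈ S, (1 : ℚ) / n = x := by
  obtain ⟨l, h1, h2, h3⟩ := h
  set B := (k * x.den) ^ (2 ^ l.card) with hB
  have key : ∀ d : ℕ, ∀ l' : Multiset ℕ, l'.card = l.card → (∀ n ∈ l', 0 < n) → rsum l' = x →
      l.card * B < l'.sum + d →
      ∃ l'' : Multiset ℕ, l''.card = l.card ∧ (∀ n ∈ l'', 0 < n) ∧ rsum l'' = x ∧ l''.Nodup := by
    intro d
    induction d with
    | zero =>
      intro l' hc hp hs hlt
      exfalso
      have hb := den_bound k l.card l' hc h1 hp x.den x.den_pos ⟨x.num, by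
        rw [hs]; exact Rat.den_mul_eq_num x⟩
      have := Multiset.sum_le_card_nsmul l' B hb
      rw [hc, smul_eq_mul] at this
      omega
    | succ d ih =>
      intro l' hc hp hs hlt
      by_cases hnd : l'.Nodup
      · exact ⟨l', hc, hp, hs, hnd⟩
      · obtain ⟨l'', c1, c2, c3, c4⟩ := improve l' hp (by rw [hs]; exact hx) hnd
        exact ih l'' (c1.trans hc) c2 (c3.trans hs) (by omega)
  obtain ⟨l'', c1, c2, c3, c4⟩ := key (l.card * B + 1) l rfl h2 h3 (by omega)
  refine ⟨⟨l'', c4⟩, by simpa [Finset.card, c1] using h1, ?_, c3⟩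
  intro n hn
  have hn' : n ∈ l'' := hn
  have := c2 n hn'
  by_contra hlt
  have hn1 : n = 1 := by omega
  subst hn1
  obtain ⟨l₀, rfl⟩ := Multiset.exists_cons_of_mem hn'
  rw [rsum_cons] at c3
  have := rsum_nonneg l₀
  norm_num at c3
  linarith

end Vale.Agent.P012
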