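import Mathlib

/-! Collision counting and the sum-product covering lemma modulo a prime. -/

namespace Vale.Agent.P012

open Finset

/-- Cauchy-Schwarz: size squared is at most image size times number of collisions -/
lemma card_sq_le_image_mul_coll {α β : Type*} [DecidableEq α] [DecidableEq β] (s : Finset α)
    (f : α → β) :
    s.card ^ 2 ≤ (s.image f).card * ((s ×ˢ s).filter (fun u => f u.1 = f u.2)).card := by
  have h1 : s.card = ∑ y ∈ s.image f, (s.filter (fun x => f x = y)).card :=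
    card_eq_sum_card_image f s
  have h2 : ((s ×ˢ s).filter (fun u => f u.1 = f u.2)).card
      = ∑ y ∈ s.image f, (s.filter (fun x => f x = y)).card ^ 2 := by
    rw [card_eq_sum_card_fiberwise (f := fun u : α × α => f u.1) (t := s.image f)]
    · apply sum_congr rfl
      intro y _
      rw [sq, ← card_product]
      congr 1
      ext ⟨a, b⟩
      simp only [mem_filter, mem_product]
      constructor
      · rintro ⟨⟨⟨ha, hb⟩, hab⟩, hy⟩
        exact ⟨⟨ha, hy⟩, hb, hab ▸ hy⟩
      · rintro ⟨⟨ha, hy⟩, hb, hy'⟩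
        exact ⟨⟨⟨ha, hb⟩, hy.trans hy'.symm⟩, hy⟩
    · intro u hu
      simp only [coe_filter, mem_product, Set.mem_ofPred_eq] at hu
      exact mem_coe.2 (mem_image_of_mem f hu.1.1)
  rw [h2]
  conv_lhs => rw [h1]
  exact sq_sum_le_card_mul_sum_sq

section
variable {p : ℕ} [Fact p.Prime]

/-- the energy of the map (x, y) ↦ x + l y on X × X -/
def energy (X : Finset (ZMod p)) (l : ZMod p) : ℕ :=
  (((X ×ˢ X) ×ˢ (X ×ˢ X)).filter
    (fun u => u.1.1 + l * u.1.2 = u.2.1 + l * u.2.2)).card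

lemma energy_cs (X : Finset (ZMod p)) (l : ZMod p) :
    X.card ^ 4 ≤ ((X ×ˢ X).image (fun u => u.1 + l * u.2)).card * energy X l := by
  have := card_sq_le_image_mul_coll (X ×ˢ X) (fun u : ZMod p × ZMod p => u.1 + l * u.2)
  rw [card_product] at this
  calc X.card ^ 4 = (X.card * X.card) ^ 2 := by ring
    _ ≤ _ := this

lemma energy_lower (X : Finset (ZMod p)) (l : ZMod p) : X.card ^ 4 ≤ p * energy X l := by
  refine (energy_cs X l).trans (Nat.mul_le_mul_right _ ?_)
  simpa using card_le_univ ((X ×ˢ X).image (fun u => u.1 + l * u.2))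

lemma sum_energy (X : Finset (ZMod p)) :
    ∑ l : ZMod p, energy X l ≤ X.card ^ 4 + p * X.card ^ 2 := by
  unfold energy
  simp_rw [card_filter]
  rw [sum_comm]
  have h : ∀ u ∈ (X ×ˢ X) ×ˢ (X ×ˢ X),
      (∑ l : ZMod p, if u.1.1 + l * u.1.2 = u.2.1 + l * u.2.2 then 1 else 0)
        ≤ 1 + (if u.1 = u.2 then p else 0) := by
    rintro ⟨⟨a, b⟩, ⟨c, d⟩⟩ _
    rw [← card_filter]
    dsimp only
    by_cases he : (a, b) = (c, d)
    · rw [if_pos he]
      have := card_le_univ (univ.filter (fun l : ZMod p => a + l * b = c + l * d))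
      rw [ZMod.card] at this
      omega
    · rw [if_neg he, add_zero, card_le_one]
      intro l hl l' hl'
      simp only [mem_filter, mem_univ, true_and] at hl hl'
      by_contra hne
      have hbd : (l - l') * (b - d) = 0 := by linear_combination hl - hl'
      rcases mul_eq_zero.1 hbd with h0 | h0
      · exact hne (sub_eq_zero.1 h0)
      · have hb : b = d := sub_eq_zero.1 h0
        subst hb
        have ha : a = c := by linear_combination hl
        exact he (by rw [ha])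
  refine (sum_le_sum h).trans ?_
  rw [sum_add_distrib, sum_const, smul_eq_mul, mul_one, card_product, card_product,
    sum_product]
  have h2 : ∀ u ∈ X ×ˢ X, (∑ v ∈ X ×ˢ X, if u = v then p else 0) = p := by
    intro u hu
    rw [sum_ite_eq, if_pos hu]
  rw [sum_congr rfl h2, sum_const, card_product, smul_eq_mul]
  apply le_of_eq
  ring

lemma exists_small_energy (X Y : Finset (ZMod p)) (K : ℕ) (hX : p ≤ K * X.card)
    (hY : K ^ 2 < Y.card) : ∃ l ∈ Y, p * energy X l < 2 * X.card ^ 4 := by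
  have hp : 0 < p := (Fact.out : p.Prime).pos
  have hX0 : 0 < X.card := by
    rcases Nat.eq_zero_or_pos X.card with h | h
    · rw [h] at hX; omega
    · exact h
  by_contra hcon
  push Not at hcon
  have h1 : ∑ l : ZMod p, (X.card ^ 4 + if l ∈ Y then X.card ^ 4 else 0)
      ≤ ∑ l : ZMod p, p * energy X l := by
    apply sum_le_sum
    intro l _
    split_ifs with h
    · have := hcon l h
      omega
    · simpa using energy_lower X l
  rw [sum_add_distrib, sum_const, ← sum_filter, ← mul_sum, card_univ, ZMod.card, sum_const] at h1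
  have h2 : univ.filter (fun l => l ∈ Y) = Y := by ext; simp
  rw [h2, smul_eq_mul, smul_eq_mul] at h1
  have h3 := Nat.mul_le_mul_left p (sum_energy X)
  have h4 : p * p ≤ (K * X.card) * (K * X.card) := Nat.mul_le_mul hX hX
  have h5 : Y.card * X.card ^ 4 ≤ p * p * X.card ^ 2 := by nlinarith
  have h6 : p * p * X.card ^ 2 ≤ K ^ 2 * X.card ^ 4 := by
    calc p * p * X.card ^ 2 ≤ (K * X.card) * (K * X.card) * X.card ^ 2 :=
          Nat.mul_le_mul_right _ h4
      _ = K ^ 2 * X.card ^ 4 := by ring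
  have h7 : K ^ 2 * X.card ^ 4 < Y.card * X.card ^ 4 :=
    Nat.mul_lt_mul_of_pos_right hY (by positivity)
  omega

lemma cover (X Y : Finset (ZMod p)) (K : ℕ) (hX : p ≤ K * X.card) (hY : K ^ 2 < Y.card) :
    ∃ l ∈ Y, ∀ c : ZMod p, ∃ x₁ ∈ X, ∃ x₂ ∈ X, ∃ x₃ ∈ X, ∃ x₄ ∈ X,
      x₁ + l * x₂ + x₃ + l * x₄ = c := by
  obtain ⟨l, hl, hE⟩ := exists_small_energy X Y K hX hY
  refine ⟨l, hl, fun c => ?_⟩
  set Z := (X ×ˢ X).image (fun u => u.1 + l * u.2) with hZ
  have hcs := energy_cs X l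
  rw [← hZ] at hcs
  have hZp : p < 2 * Z.card := by
    by_contra hcon
    push Not at hcon
    have : 2 * Z.card * energy X l ≤ p * energy X l := Nat.mul_le_mul_right _ hcon
    nlinarith
  have hnd : ¬ Disjoint Z (Z.image (fun z => c - z)) := by
    intro hd
    have h1 := card_le_univ (Z ∪ Z.image (fun z => c - z))
    rw [card_union_of_disjoint hd, card_image_of_injective _ (sub_right_injective), ZMod.card]
      at h1
    omega
  rw [not_disjoint_iff] at hnd
  obtain ⟨z, hz1, hz2⟩ := hnd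
  obtain ⟨z', hz', rfl⟩ := mem_image.1 hz2
  obtain ⟨⟨x₁, x₂⟩, h12, e1⟩ := mem_image.1 hz1
  obtain ⟨⟨x₃, x₄⟩, h34, e2⟩ := mem_image.1 hz'
  rw [mem_product] at h12 h34
  refine ⟨x₁, h12.1, x₂, h12.2, x₃, h34.1, x₄, h34.2, ?_⟩
  dsimp only at e1 e2
  linear_combination e1 + e2

end

lemma card_image_cast_of_lt {p : ℕ} (Y : Finset ℕ) (hY : ∀ y ∈ Y, y < p) :
    (Y.image (Nat.cast : ℕ → ZMod p)).card = Y.card := by
  apply card_image_of_injOn
  intro a ha b hb hab
  have := (ZMod.natCast_eq_natCast_iff' a b p).1 hab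
  rwa [Nat.mod_eq_of_lt (hY a ha), Nat.mod_eq_of_lt (hY b hb)] at this

lemma cover_nat {p : ℕ} (hp : p.Prime) (A Y : Finset ℕ) (K : ℕ)
    (hX : p ≤ K * (A.image (Nat.cast : ℕ → ZMod p)).card) (hYlt : ∀ y ∈ Y, y < p)
    (hY : K ^ 2 < Y.card) :
    ∃ l ∈ Y, ∀ c : ℕ, ∃ x₁ ∈ A, ∃ x₂ ∈ A, ∃ x₃ ∈ A, ∃ x₄ ∈ A,
      x₁ + l * x₂ + x₃ + l * x₄ ≡ c [MOD p] := by
  have : Fact p.Prime := ⟨hp⟩
  obtain ⟨l, hl, h⟩ := cover (A.image (Nat.cast : ℕ → ZMod p))
    (Y.image (Nat.cast : ℕ → ZMod p)) K hX (by rwa [card_image_cast_of_lt Y hYlt])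
  obtain ⟨l, hl', rfl⟩ := mem_image.1 hl
  refine ⟨l, hl', fun c => ?_⟩
  obtain ⟨y₁, h₁, y₂, h₂, y₃, h₃, y₄, h₄, e⟩ := h c
  obtain ⟨x₁, h₁', rfl⟩ := mem_image.1 h₁
  obtain ⟨x₂, h₂', rfl⟩ := mem_image.1 h₂
  obtain ⟨x₃, h₃', rfl⟩ := mem_image.1 h₃
  obtain ⟨x₄, h₄', rfl⟩ := mem_image.1 h₄
  refine ⟨x₁, h₁', x₂, h₂', x₃, h₃', x₄, h₄', ?_⟩
  rw [← ZMod.natCast_eq_natCast_iff]
  push_cast
  exact e

/-- a nonzero number below `V ^ ν` has at most `ν` prime factors above `V` -/
lemma card_primes_dvd_le (P : Finset ℕ) (V ν D : ℕ) (hP : ∀ q ∈ P, q.Prime ∧ V ≤ q)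
    (hV : 1 ≤ V) (hD : 0 < D) (hDV : D < V ^ ν) :
    (P.filter (fun q => q ∣ D)).card ≤ ν := by
  set Q := P.filter (fun q => q ∣ D) with hQ
  have h1 : ∏ q ∈ Q, q ∣ D := by
    apply Finset.prod_primes_dvd
    · intro q hq
      exact (hP q (mem_filter.1 hq).1).1.prime
    · intro q hq
      exact (mem_filter.1 hq).2
  have h2 : V ^ Q.card ≤ ∏ q ∈ Q, q :=
    Finset.pow_card_le_prod Q (fun q => q) V (fun q hq => (hP q (mem_filter.1 hq).1).2)
  have h3 := Nat.le_of_dvd hD h1
  by_contra hcon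
  push Not at hcon
  have := Nat.pow_le_pow_right hV hcon.le
  omega

/-- for at least half of the primes in `P` the set `A` has many residues -/
lemma many_residues (A P : Finset ℕ) (V ν : ℕ) (hP : ∀ q ∈ P, q.Prime ∧ V ≤ q) (hV : 1 ≤ V)
    (hA : ∀ d ∈ A, d < V ^ ν) :
    ∃ G ⊆ P, P.card ≤ 2 * G.card ∧ ∀ q ∈ G,
      A.card * P.card ≤ (A.image (Nat.cast : ℕ → ZMod q)).card * (P.card + 2 * ν * A.card) := by
  set C : ℕ → ℕ := fun q =>
    ((A ×ˢ A).filter (fun u => u.1 ≠ u.2 ∧ ((u.1 : ZMod q) = (u.2 : ZMod q)))).card with hC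
  have hsum : ∑ q ∈ P, C q ≤ ν * A.card ^ 2 := by
    simp only [hC, card_filter]
    rw [sum_comm]
    have h : ∀ u ∈ A ×ˢ A, (∑ q ∈ P,
        if u.1 ≠ u.2 ∧ ((u.1 : ZMod q) = (u.2 : ZMod q)) then 1 else 0) ≤ ν := by
      rintro ⟨a, b⟩ hu
      rw [mem_product] at hu
      rw [← card_filter]
      dsimp only at hu ⊢
      rcases lt_trichotomy a b with hab | hab | hab
      · refine le_trans (card_le_card ?_) (card_primes_dvd_le P V ν (b - a) hP hV (by omega)
          (lt_of_le_of_lt (Nat.sub_le _ _) (hA b hu.2)))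
        intro q hq
        rw [mem_filter] at hq ⊢
        exact ⟨hq.1, (Nat.modEq_iff_dvd' hab.le).1 ((ZMod.natCast_eq_natCast_iff _ _ _).1 hq.2.2)⟩
      · simp [hab]
      · refine le_trans (card_le_card ?_) (card_primes_dvd_le P V ν (a - b) hP hV (by omega)
          (lt_of_le_of_lt (Nat.sub_le _ _) (hA a hu.1)))
        intro q hq
        rw [mem_filter] at hq ⊢
        exact ⟨hq.1, (Nat.modEq_iff_dvd' hab.le).1
          ((ZMod.natCast_eq_natCast_iff _ _ _).1 hq.2.2.symm)⟩
    refine (sum_le_sum h).trans ?_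
    rw [sum_const, card_product, smul_eq_mul]
    apply le_of_eq
    ring
  refine ⟨P.filter (fun q => P.card * C q ≤ 2 * ν * A.card ^ 2), filter_subset _ _, ?_, ?_⟩
  · set B := P.filter (fun q => ¬ P.card * C q ≤ 2 * ν * A.card ^ 2) with hB
    have h1 := card_filter_add_card_filter_not (s := P)
      (fun q => P.card * C q ≤ 2 * ν * A.card ^ 2)
    rw [← hB] at h1
    have h2 : B.card * (2 * ν * A.card ^ 2 + 1) ≤ P.card * (ν * A.card ^ 2) := by
      calc B.card * (2 * ν * A.card ^ 2 + 1) = ∑ _q ∈ B, (2 * ν * A.card ^ 2 + 1) := by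
            rw [sum_const, smul_eq_mul]
        _ ≤ ∑ q ∈ B, P.card * C q := by
            apply sum_le_sum
            intro q hq
            have := (mem_filter.1 hq).2
            omega
        _ ≤ ∑ q ∈ P, P.card * C q := sum_le_sum_of_subset (filter_subset _ _)
        _ = P.card * ∑ q ∈ P, C q := by rw [mul_sum]
        _ ≤ _ := Nat.mul_le_mul_left _ hsum
    have h3 : 2 * B.card ≤ P.card := by
      by_contra hcon
      push Not at hcon
      have := Nat.mul_le_mul_right (ν * A.card ^ 2) hcon.le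
      nlinarith
    omega
  · intro q hq
    have hq2 := (mem_filter.1 hq).2
    have h1 := card_sq_le_image_mul_coll A (Nat.cast : ℕ → ZMod q)
    have h2 : ((A ×ˢ A).filter (fun u => ((u.1 : ℕ) : ZMod q) = (u.2 : ℕ))).card
        ≤ A.card + C q := by
      calc _ ≤ (A.diag ∪ (A ×ˢ A).filter
            (fun u => u.1 ≠ u.2 ∧ ((u.1 : ZMod q) = (u.2 : ZMod q)))).card := by
            apply card_le_card
            rintro ⟨a, b⟩ hu
            simp only [mem_filter, mem_product, mem_union, mem_diag] at hu ⊢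
            by_cases hab : a = b
            · exact Or.inl ⟨hu.1.1, hab⟩
            · exact Or.inr ⟨hu.1, hab, hu.2⟩
        _ ≤ _ := by
            refine (card_union_le _ _).trans ?_
            rw [diag_card]
    rcases Nat.eq_zero_or_pos A.card with h0 | h0
    · simp [h0]
    · apply Nat.le_of_mul_le_mul_left _ h0
      set X := (A.image (Nat.cast : ℕ → ZMod q)).card
      have h3 : A.card ^ 2 ≤ X * (A.card + C q) := h1.trans (Nat.mul_le_mul_left _ h2)
      calc A.card * (A.card * P.card) = A.card ^ 2 * P.card := by ring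
        _ ≤ X * (A.card + C q) * P.card := Nat.mul_le_mul_right _ h3
        _ = X * (A.card * P.card + P.card * C q) := by ring
        _ ≤ X * (A.card * P.card + 2 * ν * A.card ^ 2) :=
            Nat.mul_le_mul_left _ (Nat.add_le_add_left hq2 _)
        _ = _ := by ring

end Vale.Agent.P012
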