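import Vale.Agent.P012.Main

/-! Passing from towers of two to iterated logarithms. -/

namespace Vale.Agent.P012

open Finset

lemma loglog_lower (s b : ℕ) (h : 2 ^ 2 ^ s < b) :
    ((s : ℝ) - 1) * Real.log 2 ≤ Real.log (Real.log b) := by
  have h2 : (1 : ℝ) / 2 ≤ Real.log 2 := by have := Real.log_two_gt_d9; linarith
  have h1 : (2 : ℝ) ^ s * Real.log 2 ≤ Real.log b := by
    have : ((2 ^ 2 ^ s : ℕ) : ℝ) ≤ b := by exact_mod_cast h.le
    have h3 := Real.log_le_log (by positivity) this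
    rw [Nat.cast_pow, Real.log_pow] at h3
    push_cast at h3
    exact h3
  have h4 : (2 : ℝ) ^ s / 2 ≤ Real.log b := by
    have : (0 : ℝ) < 2 ^ s := by positivity
    nlinarith
  have h5 := Real.log_le_log (by positivity) h4
  rw [Real.log_div (by positivity) (by norm_num), Real.log_pow] at h5
  linarith

lemma loglog_upper (s b : ℕ) (hb : 2 ≤ b) (h : b ≤ 2 ^ 2 ^ s) :
    Real.log (Real.log b) ≤ s := by
  have h2 : Real.log 2 ≤ 1 := by have := Real.log_two_lt_d9; linarith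
  have hb' : (1 : ℝ) < b := by exact_mod_cast (by omega : 1 < b)
  have h1 : Real.log b ≤ (2 : ℝ) ^ s := by
    have : (b : ℝ) ≤ ((2 ^ 2 ^ s : ℕ) : ℝ) := by exact_mod_cast h
    have h3 := Real.log_le_log (by positivity) this
    rw [Nat.cast_pow, Real.log_pow] at h3
    push_cast at h3
    have : (0 : ℝ) < 2 ^ s := by positivity
    nlinarith
  have h5 := Real.log_le_log (Real.log_pos hb') h1
  rw [Real.log_pow] at h5
  have : (0 : ℝ) ≤ s := by positivity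
  nlinarith

theorem upper_real (t₀ : ℕ) (ht₀ : 20 ≤ t₀) (b : ℕ) (hb : 2 ^ 2 ^ t₀ < b) (a : ℕ) (ha : 1 ≤ a)
    (hab : a < b) : ∃ S : Finset ℕ, (∀ n ∈ S, 2 ≤ n) ∧ ∑ n ∈ S, (1 : ℚ) / n = (a : ℚ) / b ∧
      (S.card : ℝ) ≤ 1000 * Real.log (Real.log b) := by
  have hex : ∃ t, b ≤ 2 ^ 2 ^ t :=
    ⟨b, Nat.lt_two_pow_self.le.trans (Nat.pow_le_pow_right (by norm_num) Nat.lt_two_pow_self.le)⟩
  have h1 := Nat.find_spec hex
  have h2 : t₀ < Nat.find hex := by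
    by_contra hcon
    push Not at hcon
    have : 2 ^ 2 ^ Nat.find hex ≤ 2 ^ 2 ^ t₀ :=
      Nat.pow_le_pow_right (by norm_num) (Nat.pow_le_pow_right (by norm_num) hcon)
    omega
  obtain ⟨s, hs⟩ : ∃ s, Nat.find hex = s + 1 := ⟨Nat.find hex - 1, by omega⟩
  have h3 : 2 ^ 2 ^ s < b := by
    have := Nat.find_min hex (m := s) (by omega)
    omega
  rw [hs] at h1 h2
  have hlt : (a : ℚ) / b < 1 := by
    rw [div_lt_one (by exact_mod_cast (by omega : 0 < b))]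
    exact_mod_cast hab
  obtain ⟨S, c1, c2, c3⟩ := (upper (s + 1) (by omega) a b ha hab h1).distinct hlt
  refine ⟨S, c2, c3, ?_⟩
  have h4 := loglog_lower s b h3
  have h5 : (S.card : ℝ) ≤ 500 * (s + 1) := by exact_mod_cast c1
  have h6 : (20 : ℝ) ≤ s := by exact_mod_cast (by omega : 20 ≤ s)
  have h7 := Real.log_two_gt_d9
  nlinarith

theorem lower_real (b : ℕ) (hb : 2 ≤ b) (S : Finset ℕ) (hS : ∀ n ∈ S, 2 ≤ n)
    (h : ∑ n ∈ S, (1 : ℚ) / n = ((b - 1 : ℕ) : ℚ) / b) :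
    1 / 4 * Real.log (Real.log b) ≤ S.card := by
  have h1 := loglog_upper _ b hb (lower b hb S hS h)
  have h2 : 1 ≤ S.card := by
    rw [one_le_card, nonempty_iff_ne_empty]
    rintro rfl
    rw [sum_empty] at h
    have e1 : (0 : ℚ) < ((b - 1 : ℕ) : ℚ) := by exact_mod_cast (by omega : 0 < b - 1)
    have e2 : (0 : ℚ) < b := by exact_mod_cast (by omega : 0 < b)
    have := div_pos e1 e2
    linarith
  have h3 : (1 : ℝ) ≤ S.card := by exact_mod_cast h2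
  push_cast at h1
  linarith

theorem both (t₀ : ℕ) (ht₀ : 20 ≤ t₀) (b : ℕ) (hb : 2 ^ 2 ^ t₀ + 1 ≤ b) :
    (∀ a : ℕ, 1 ≤ a → a < b → ∃ S : Finset ℕ, (∀ n ∈ S, 2 ≤ n) ∧
      ∑ n ∈ S, (1 : ℚ) / n = (a : ℚ) / b ∧ (S.card : ℝ) ≤ 1000 * Real.log (Real.log b)) ∧
    (∃ a : ℕ, 1 ≤ a ∧ a < b ∧ ∀ S : Finset ℕ, (∀ n ∈ S, 2 ≤ n) →
      ∑ n ∈ S, (1 : ℚ) / n = (a : ℚ) / b → 1 / 4 * Real.log (Real.log b) ≤ S.card) := by
  have h1 : 1 ≤ 2 ^ 2 ^ t₀ := Nat.one_le_two_pow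
  exact ⟨upper_real t₀ ht₀ b (by omega), b - 1, by omega, by omega,
    lower_real b (by omega)⟩

end Vale.Agent.P012
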