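import Vale.Agent.P012.Basic

/-! Greedy steps, digit expansions and the assembly of an expansion. -/

namespace Vale.Agent.P012

open Finset

lemma greedy_step (a b t : ℕ) (ha : 0 < a) (hb : 0 < b) (h : a * t < b) :
    ∃ a₁ n : ℕ, a₁ < a ∧ 0 < n ∧ a * (n - 1) < b ∧ a₁ * (t * (t + 1)) < b * n ∧
      (a : ℚ) / b = 1 / n + (a₁ : ℚ) / ((b * n : ℕ) : ℚ) := by
  obtain ⟨c, hc⟩ : ∃ c, c = (b - 1) / a := ⟨_, rfl⟩
  have h1 : a * c ≤ b - 1 := by rw [hc]; exact Nat.mul_div_le _ _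
  have h2 : b - 1 < a * (c + 1) := by
    rw [hc]; exact Nat.lt_mul_div_succ _ ha
  have h3 : t ≤ c := by
    rw [hc, Nat.le_div_iff_mul_le ha, mul_comm]; omega
  have h4 : b ≤ a * (c + 1) := by omega
  obtain ⟨a₁, ha₁⟩ := Nat.exists_eq_add_of_le h4
  have h5 : a₁ < a := by
    have : a * (c + 1) = a * c + a := by ring
    omega
  refine ⟨a₁, c + 1, h5, by omega, by simp only [Nat.add_sub_cancel]; omega, ?_, ?_⟩
  · have e1 : t * (t + 1) ≤ c * (c + 1) := Nat.mul_le_mul h3 (by omega)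
    have e2 : a₁ * c < b := lt_of_le_of_lt (Nat.mul_le_mul_right _ h5.le) (by omega)
    calc a₁ * (t * (t + 1)) ≤ a₁ * (c * (c + 1)) := Nat.mul_le_mul_left _ e1
      _ = a₁ * c * (c + 1) := by ring
      _ < b * (c + 1) := Nat.mul_lt_mul_of_pos_right e2 (by omega)
  · have hq : (a : ℚ) * (c + 1) = b + a₁ := by exact_mod_cast ha₁
    have hbq : (0 : ℚ) < b := by exact_mod_cast hb
    push_cast
    field_simp
    linarith

lemma greedy (T : ℕ) (k : ℕ) : ∀ t a b : ℕ, 0 < b → a * t < b → T ≤ t ^ (2 ^ k) →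
    ∃ a' b' : ℕ, a' ≤ a ∧ 0 < b' ∧ a' * T < b' ∧ (b' ≤ b ∨ b' ≤ a * T ^ 2) ∧
      UF k ((a : ℚ) / b - (a' : ℚ) / b') := by
  induction k with
  | zero =>
    intro t a b hb h hT
    refine ⟨a, b, le_rfl, hb, ?_, Or.inl le_rfl, by simpa using UF.zero 0⟩
    simp only [pow_zero, pow_one] at hT
    exact lt_of_le_of_lt (Nat.mul_le_mul_left _ hT) h
  | succ k ih =>
    intro t a b hb h hT
    by_cases hdone : a * T < b
    · exact ⟨a, b, le_rfl, hb, hdone, Or.inl le_rfl, by simpa using UF.zero _⟩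
    push Not at hdone
    have ha : 0 < a := by
      rcases Nat.eq_zero_or_pos a with h0 | h0
      · subst h0; simp at hdone; omega
      · exact h0
    obtain ⟨a₁, n, h1, h2, h3, h4, h5⟩ := greedy_step a b t ha hb h
    have hn : n ≤ T := by
      have : a * (n - 1) < a * T := lt_of_lt_of_le h3 hdone
      have := Nat.lt_of_mul_lt_mul_left this
      omega
    have hbn : b * n ≤ a * T ^ 2 := by
      calc b * n ≤ a * T * T := Nat.mul_le_mul hdone hn
        _ = a * T ^ 2 := by ring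
    obtain ⟨a', b', c1, c2, c3, c4, c5⟩ := ih (t * (t + 1)) a₁ (b * n) (Nat.mul_pos hb h2) h4 (by
      refine hT.trans ?_
      rw [pow_succ, mul_comm (2 ^ k) 2, pow_mul]
      apply Nat.pow_le_pow_left
      nlinarith)
    refine ⟨a', b', c1.trans h1.le, c2, c3, Or.inr ?_, ?_⟩
    · rcases c4 with c4 | c4
      · exact c4.trans hbn
      · exact c4.trans (Nat.mul_le_mul_right _ h1.le)
    · refine (c5.add (UF.unit h2)).congr ?_
      rw [h5]; ring

lemma greedy_start (T k a b : ℕ) (ha : 0 < a) (hab : a < b) (hT : T ≤ 2 ^ (2 ^ k)) :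
    ∃ a' b' : ℕ, 0 < b' ∧ a' * T < b' ∧ (b' ≤ b ^ 2 ∨ b' ≤ b * T ^ 2) ∧
      UF (k + 1) ((a : ℚ) / b - (a' : ℚ) / b') := by
  have hb : 0 < b := by omega
  obtain ⟨a₁, n, h1, h2, h3, h4, h5⟩ := greedy_step a b 1 ha hb (by omega)
  have hn : n ≤ b := by
    have : 1 * (n - 1) ≤ a * (n - 1) := Nat.mul_le_mul_right _ ha
    omega
  obtain ⟨a', b', c1, c2, c3, c4, c5⟩ := greedy T k 2 a₁ (b * n) (Nat.mul_pos hb h2)
    (by simpa using h4) hT
  refine ⟨a', b', c2, c3, ?_, ?_⟩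
  · rcases c4 with c4 | c4
    · left
      rw [sq]
      exact c4.trans (Nat.mul_le_mul_left _ hn)
    · right
      exact c4.trans (Nat.mul_le_mul_right _ (by omega))
  · refine (c5.add (UF.unit h2)).congr ?_
    rw [h5]; ring

lemma digits (m W n c e : ℕ) (hm : 2 ≤ m) (hn : 0 < n)
    (H : ∀ r : ℕ, ∃ g : ℕ, g ≡ r [MOD m] ∧ g ≤ W * m ∧ UF c ((g : ℚ) / n)) (j : ℕ) :
    ∀ R : ℕ, 2 * W * m ^ j ≤ R + 2 * W → R < 2 ^ e * m ^ j →
      UF (c * j + e) ((R : ℚ) / ((n * 2 ^ e * m ^ j : ℕ) : ℚ)) := by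
  induction j with
  | zero =>
    intro R _ h2
    have := (UF.binary e R (by simpa using h2)).div hn
    refine (this.mono (by omega)).congr ?_
    push_cast
    field_simp
  | succ j ih =>
    intro R h1 h2
    obtain ⟨g, hg1, hg2, hg3⟩ := H R
    have hmj : 1 ≤ m ^ j := Nat.one_le_pow _ _ (by omega)
    obtain ⟨M, hM⟩ := Nat.exists_eq_add_of_le hmj
    obtain ⟨m', rfl⟩ := Nat.exists_eq_add_of_le hm
    rw [pow_succ, hM] at h1 h2
    have hgR : g ≤ R := by nlinarith [Nat.zero_le (W * M), Nat.zero_le (W * m'), Nat.zero_le (W * M * m')]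
    obtain ⟨R', hR'⟩ := (Nat.modEq_iff_dvd' hgR).1 hg1
    have hR : R = g + (2 + m') * R' := by omega
    have i1 : 2 * W * (2 + m') ^ j ≤ R' + 2 * W := by
      rw [hM]
      by_contra hcon
      push Not at hcon
      have : (2 + m') * (R' + 2 * W + 1) ≤ (2 + m') * (2 * W * (1 + M)) :=
        Nat.mul_le_mul_left _ hcon
      nlinarith [Nat.zero_le (W * m')]
    have i2 : R' < 2 ^ e * (2 + m') ^ j := by
      rw [hM]
      by_contra hcon
      push Not at hcon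
      have : (2 + m') * (2 ^ e * (1 + M)) ≤ (2 + m') * R' := Nat.mul_le_mul_left _ hcon
      nlinarith
    have h3 := (ih R' i1 i2).add (hg3.div (m := 2 ^ e * (2 + m') ^ (j + 1)) (by positivity))
    refine (h3.mono (by ring_nf; omega)).congr ?_
    rw [hR]
    have hnq : (0 : ℚ) < n := by exact_mod_cast hn
    push_cast
    field_simp
    ring

lemma assemble (m W n c e j a b : ℕ) (hm : 2 ≤ m) (hn : 0 < n) (hW : 1 ≤ W)
    (H : ∀ r : ℕ, ∃ g : ℕ, g ≡ r [MOD m] ∧ g ≤ W * m ∧ UF c ((g : ℚ) / n))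
    (he : 3 * W + 1 ≤ 2 ^ e) (hb : 0 < b) (hab : a * (n * 2 ^ e) < b) (hbj : b ≤ m ^ j) :
    UF (2 * (c * j + e)) ((a : ℚ) / b) := by
  rcases Nat.eq_zero_or_pos a with h0 | ha
  · subst h0; simpa using UF.zero _
  set N := n * 2 ^ e with hN
  have hN4 : 4 ≤ N := by
    have : 1 * 2 ^ e ≤ n * 2 ^ e := Nat.mul_le_mul_right _ hn
    omega
  have haN : 0 < a * N := by positivity
  have hb3 : 3 ≤ b := by
    have : 1 * N ≤ a * N := Nat.mul_le_mul_right _ ha
    omega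
  obtain ⟨f, hf⟩ : ∃ f, f = 3 * W * b / (a * N) + 1 := ⟨_, rfl⟩
  have hf0 : 0 < f := by rw [hf]; exact Nat.succ_pos _
  have f1 : 3 * W * b < a * N * f := by rw [hf]; exact Nat.lt_mul_div_succ _ haN
  have f2 : a * N * f < (3 * W + 1) * b := by
    have := Nat.mul_div_le (3 * W * b) (a * N)
    rw [hf]; nlinarith
  set M := m ^ j with hM
  have hM0 : 0 < M := by omega
  obtain ⟨R, hR⟩ : ∃ R, R = a * N * f * M := ⟨_, rfl⟩
  have r1 : 3 * W * b * M < R := by rw [hR]; exact Nat.mul_lt_mul_of_pos_right f1 hM0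
  have r2 : R < (3 * W + 1) * b * M := by rw [hR]; exact Nat.mul_lt_mul_of_pos_right f2 hM0
  have r3 : 2 * W * M ≤ R := by
    have : 2 * W * M ≤ 3 * W * b * M := Nat.mul_le_mul_right _ (by nlinarith)
    omega
  obtain ⟨D, hD⟩ := Nat.exists_eq_add_of_le r3
  obtain ⟨q, hq⟩ : ∃ q, q = D / b := ⟨_, rfl⟩
  obtain ⟨s, hs⟩ : ∃ s, s = D % b := ⟨_, rfl⟩
  have hsb : s < b := by rw [hs]; exact Nat.mod_lt _ hb
  have hqs : b * q + s = D := by rw [hq, hs]; exact Nat.div_add_mod D b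
  have q1 : 2 * W * M ≤ q + 2 * W := by
    by_contra hcon
    push Not at hcon
    have i1 : b * (q + 1) ≤ b * (2 * W * M) := Nat.mul_le_mul_left _ (by omega)
    have i2 : 3 * (W * M) ≤ b * (W * M) := Nat.mul_le_mul_right _ hb3
    have i3 : 1 * M ≤ W * M := Nat.mul_le_mul_right _ hW
    nlinarith
  have q2 : q < 2 ^ e * M := by
    have i1 : b * q < b * ((3 * W + 1) * M) := by nlinarith
    have i2 := Nat.lt_of_mul_lt_mul_left i1
    exact lt_of_lt_of_le i2 (Nat.mul_le_mul_right _ he)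
  have s1 : 2 * W * M ≤ (2 * W * M + s) + 2 * W := by omega
  have s2 : 2 * W * M + s < 2 ^ e * M := by
    have : (3 * W + 1) * M ≤ 2 ^ e * M := Nat.mul_le_mul_right _ he
    nlinarith [Nat.zero_le (W * M)]
  have d1 := (digits m W n c e hm hn H j q q1 q2).div hf0
  have d2 := (digits m W n c e hm hn H j _ s1 s2).div (Nat.mul_pos hb hf0)
  refine ((d1.add d2).mono (by omega)).congr ?_
  rw [← hN, ← hM]
  have key : a * N * f * M = b * q + (2 * W * M + s) := by omega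
  have keyq : (a : ℚ) * N * f * M = b * q + ((2 * W * M + s : ℕ) : ℚ) := by exact_mod_cast key
  have hNq : (0 : ℚ) < N := by exact_mod_cast (by omega : 0 < N)
  have hMq : (0 : ℚ) < M := by exact_mod_cast hM0
  have hfq : (0 : ℚ) < f := by exact_mod_cast hf0
  have hbq : (0 : ℚ) < b := by exact_mod_cast hb
  generalize ((2 * W * M + s : ℕ) : ℚ) = z at keyq ⊢
  push_cast
  field_simp
  linarith

end Vale.Agent.P012
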