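import Vale.Agent.P012.Greedy
import Vale.Agent.P012.Cover

/-! The main construction: every fraction with denominator at most `2 ^ 2 ^ t` is a sum of
`O(t)` unit fractions. -/

namespace Vale.Agent.P012

open Finset

lemma pi_lower (e : ℕ) : 2 ^ e ≤ e * (Nat.primesLE (2 ^ e)).card + (e + 1) := by
  have h1 := Chebyshev.two_pow_le_mul_lcmUpto (2 ^ e)
  have h2 : Nat.lcmUpto (2 ^ e) ≤ (2 ^ e) ^ (Nat.primesLE (2 ^ e)).card := by
    rw [Nat.lcmUpto_eq_prod_pow_log]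
    apply Finset.prod_le_pow_card
    intro p _
    exact Nat.pow_log_le_self p (by positivity)
  have h3 : 2 ^ e + 1 ≤ 2 ^ (e + 1) := by
    have : 1 ≤ 2 ^ e := Nat.one_le_two_pow
    rw [pow_succ]; omega
  have h4 : 2 ^ (2 ^ e) ≤ 2 ^ (e * (Nat.primesLE (2 ^ e)).card + (e + 1)) := by
    calc 2 ^ (2 ^ e) ≤ (2 ^ e + 1) * Nat.lcmUpto (2 ^ e) := h1
      _ ≤ 2 ^ (e + 1) * (2 ^ e) ^ (Nat.primesLE (2 ^ e)).card := Nat.mul_le_mul h3 h2
      _ = _ := by rw [← pow_mul, ← pow_add, add_comm]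
  exact (Nat.pow_le_pow_iff_right (by norm_num)).1 h4

/-- a number dividing a sum of four divisors of `n` gives a four term expansion -/
lemma UF.of_dvd_sum {p n e₁ e₂ e₃ e₄ : ℕ} (hn : 0 < n) (h₁ : e₁ ∣ n) (h₂ : e₂ ∣ n)
    (h₃ : e₃ ∣ n) (h₄ : e₄ ∣ n) (h : p ∣ e₁ + e₂ + e₃ + e₄) : UF 4 ((p : ℚ) / n) := by
  obtain ⟨M, hM⟩ := h
  have he : 0 < e₁ := Nat.pos_of_dvd_of_pos h₁ hn
  have hM0 : 0 < M := by
    rcases Nat.eq_zero_or_pos M with h0 | h0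
    · subst h0; omega
    · exact h0
  have := ((((UF.of_dvd hn h₁).add (UF.of_dvd hn h₂)).add (UF.of_dvd hn h₃)).add
    (UF.of_dvd hn h₄)).div hM0
  refine this.congr ?_
  have hq : (e₁ : ℚ) + e₂ + e₃ + e₄ = p * M := by exact_mod_cast hM
  have hnq : (0 : ℚ) < n := by exact_mod_cast hn
  have hMq : (0 : ℚ) < M := by exact_mod_cast hM0
  field_simp
  linarith

lemma levels (N V ν U r K L m : ℕ) (A Y Q : Finset ℕ) (hN : 0 < N) (hA : ∀ d ∈ A, d ∣ N)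
    (hY : ∀ y ∈ Y, y ∣ N ∧ y ≤ L) (hAU : A.card = U) (hNV : N < V ^ ν)
    (hQ : ∀ q ∈ Q, q.Prime ∧ V ≤ q ∧ q ≤ U) (hLV : L < V) (hL : 1 ≤ L) (hUQ : U ≤ r * Q.card)
    (hK1 : r * (1 + 2 * ν) ≤ K) (hK2 : 4 * r ≤ K) (hKY : K ^ 2 < Y.card) (hU : 0 < U)
    (hm : m.Prime) (hm1 : U < m) (hm2 : m ≤ 2 * U) (hVU : V ≤ U) :
    ∀ c : ℕ, ∃ g : ℕ, g ≡ c [MOD m] ∧ g ≤ 4 * L * m ∧ UF 16 ((g : ℚ) / ((N ^ 3 : ℕ) : ℚ)) := by
  obtain ⟨G, hGQ, hG, hres⟩ := many_residues A Q V ν (fun q hq => ⟨(hQ q hq).1, (hQ q hq).2.1⟩)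
    (by omega) (fun d hd => lt_of_le_of_lt (Nat.le_of_dvd hN (hA d hd)) hNV)
  have hQU : Q.card ≤ U := by
    calc Q.card ≤ (Icc 1 U).card := by
          apply card_le_card
          intro q hq
          exact mem_Icc.2 ⟨(hQ q hq).1.one_le, (hQ q hq).2.2⟩
      _ = U := by simp
  have hgood : ∀ p ∈ G, UF 4 ((p : ℚ) / ((N ^ 2 : ℕ) : ℚ)) := by
    intro p hp
    obtain ⟨hp1, hp2, hp3⟩ := hQ p (hGQ hp)
    have h1 := hres p hp
    set X := (A.image (Nat.cast : ℕ → ZMod p)).card with hX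
    rw [hAU] at h1
    have h2 : Q.card ≤ X * (1 + 2 * ν) := by
      apply Nat.le_of_mul_le_mul_left _ hU
      calc U * Q.card ≤ X * (Q.card + 2 * ν * U) := h1
        _ ≤ X * (U + 2 * ν * U) := Nat.mul_le_mul_left _ (by omega)
        _ = _ := by ring
    have h3 : p ≤ K * X := by
      calc p ≤ r * Q.card := hp3.trans hUQ
        _ ≤ r * (X * (1 + 2 * ν)) := Nat.mul_le_mul_left _ h2
        _ = r * (1 + 2 * ν) * X := by ring
        _ ≤ K * X := Nat.mul_le_mul_right _ hK1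
    obtain ⟨l, hl, hc⟩ := cover_nat hp1 A Y K h3 (fun y hy => by have := (hY y hy).2; omega) hKY
    obtain ⟨x₁, m₁, x₂, m₂, x₃, m₃, x₄, m₄, e⟩ := hc 0
    have hl' := (hY l hl).1
    refine UF.of_dvd_sum (e₁ := x₁) (e₂ := l * x₂) (e₃ := x₃) (e₄ := l * x₄) (by positivity)
      ?_ ?_ ?_ ?_ ((Nat.modEq_zero_iff_dvd).1 e)
    · rw [sq]; exact (hA _ m₁).mul_right _
    · rw [sq]; exact mul_dvd_mul hl' (hA _ m₂)
    · rw [sq]; exact (hA _ m₃).mul_right _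
    · rw [sq]; exact mul_dvd_mul hl' (hA _ m₄)
  have hGlt : ∀ p ∈ G, p < m := fun p hp => by have := (hQ p (hGQ hp)).2.2; omega
  have h4 : m ≤ K * (G.image (Nat.cast : ℕ → ZMod m)).card := by
    rw [card_image_cast_of_lt G hGlt]
    calc m ≤ 2 * (r * Q.card) := by omega
      _ ≤ 2 * (r * (2 * G.card)) := Nat.mul_le_mul_left _ (Nat.mul_le_mul_left _ hG)
      _ = 4 * r * G.card := by ring
      _ ≤ K * G.card := Nat.mul_le_mul_right _ hK2
  obtain ⟨l, hl, hc⟩ := cover_nat hm G Y K h4 (fun y hy => by have := (hY y hy).2; omega) hKY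
  intro c
  obtain ⟨x₁, m₁, x₂, m₂, x₃, m₃, x₄, m₄, e⟩ := hc c
  obtain ⟨⟨l', hl'⟩, hlL⟩ := hY l hl
  have hl0 : 0 < l := Nat.pos_of_mul_pos_right (hl' ▸ hN)
  have hl'0 : 0 < l' := Nat.pos_of_mul_pos_left (hl' ▸ hN)
  refine ⟨_, e, ?_, ?_⟩
  · have b₁ := (hGlt _ m₁).le
    have b₃ := (hGlt _ m₃).le
    have b₂ : l * x₂ ≤ L * m := Nat.mul_le_mul hlL (hGlt _ m₂).le
    have b₄ : l * x₄ ≤ L * m := Nat.mul_le_mul hlL (hGlt _ m₄).le
    have b₅ : 1 * m ≤ L * m := Nat.mul_le_mul_right _ hL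
    nlinarith
  · have := ((((hgood _ m₁).div hN).add ((hgood _ m₂).div hl'0)).add
      ((hgood _ m₃).div hN)).add ((hgood _ m₄).div hl'0)
    refine this.congr ?_
    have hlq : (0 : ℚ) < l := by exact_mod_cast hl0
    have hl'q : (0 : ℚ) < l' := by exact_mod_cast hl'0
    rw [hl']
    push_cast
    field_simp

lemma prod_injOn (P : Finset ℕ) (hP : ∀ q ∈ P, q.Prime) :
    Set.InjOn (fun s : Finset ℕ => ∏ q ∈ s, q) P.powerset := by
  intro s hs s' hs' h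
  have hs1 : s ⊆ P := by simpa using hs
  have hs2 : s' ⊆ P := by simpa using hs'
  have e1 := Nat.primeFactors_prod (s := s) (fun q hq => hP q (hs1 hq))
  have e2 := Nat.primeFactors_prod (s := s') (fun q hq => hP q (hs2 hq))
  dsimp only at h
  rw [← e1, ← e2, h]

lemma num_bound (t : ℕ) (ht : 20 ≤ t) : 2000 * t ^ 2 ≤ 2 ^ t := by
  induction t, ht using Nat.le_induction with
  | base => norm_num
  | succ t ht ih => rw [pow_succ 2 t]; nlinarith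

lemma choose_bound (t w : ℕ) (ht : 20 ≤ t) (hnum : 2000 * t ^ 2 ≤ w) :
    (18 * t * w) ^ 2 < w.choose 3 := by
  have h1 := Nat.pow_sub_le_descFactorial w 3
  rw [Nat.descFactorial_eq_factorial_mul_choose] at h1
  have hw : 800000 ≤ w := by nlinarith
  obtain ⟨u, rfl⟩ : ∃ u, w = u + 2 := ⟨w - 2, by omega⟩
  have h2 : u + 2 + 1 - 3 = u := by omega
  have h3 : Nat.factorial 3 = 6 := by decide
  rw [h2, h3] at h1
  have hu : 700000 ≤ u := by omega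
  have h4 : 2000 * (6 * (18 * t * (u + 2)) ^ 2) = 1944 * (2000 * t ^ 2 * (u + 2) ^ 2) := by ring
  have h5 : 2000 * t ^ 2 * (u + 2) ^ 2 ≤ (u + 2) * (u + 2) ^ 2 := Nat.mul_le_mul_right _ hnum
  have h6 : 1944 * ((u + 2) * (u + 2) ^ 2) < 2000 * u ^ 3 := by
    have i1 : 700000 * u ^ 2 ≤ u * u ^ 2 := Nat.mul_le_mul_right _ hu
    have i2 : 700000 * u ≤ u * u := Nat.mul_le_mul_right _ hu
    nlinarith
  omega

lemma digit_system (t : ℕ) (ht : 20 ≤ t) : ∃ n m : ℕ, 0 < n ∧ n ≤ 2 ^ (6 * t * 2 ^ t) ∧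
    2 ^ 2 ^ t ≤ m ∧ ∀ c : ℕ, ∃ g : ℕ, g ≡ c [MOD m] ∧ g ≤ 4 * 2 ^ (6 * t) * m ∧
      UF 16 ((g : ℚ) / n) := by
  have hnum := num_bound t ht
  obtain ⟨h, hh⟩ : ∃ h, 2 ^ t = 2 * h := ⟨2 ^ (t - 1), by
    rw [← pow_succ']; congr 1; omega⟩
  obtain ⟨w, hw⟩ : ∃ w, w = 2 ^ t := ⟨_, rfl⟩
  have hw2 : 2 ^ (2 * t) = w ^ 2 := by rw [hw, ← pow_mul, mul_comm]
  have hw6 : 2 ^ (6 * t) = w ^ 6 := by rw [hw, ← pow_mul, mul_comm]
  rw [← hw] at hnum hh ⊢
  have hP0 : w ≤ (Nat.primesLE (w ^ 2)).card := by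
    have := pi_lower (2 * t)
    rw [hw2] at this
    by_contra hcon
    push Not at hcon
    have h1 : 2 * t * ((Nat.primesLE (w ^ 2)).card + 1) ≤ 2 * t * w := Nat.mul_le_mul_left _ hcon
    have h2 : (2 * t + 2) * w ≤ w * w := Nat.mul_le_mul_right _ (by nlinarith)
    nlinarith
  obtain ⟨P, hPsub, hPcard⟩ := exists_subset_card_eq hP0
  have hP : ∀ q ∈ P, q.Prime := fun q hq => Nat.prime_of_mem_primesLE (hPsub hq)
  have hPle : ∀ q ∈ P, q ≤ w ^ 2 := fun q hq => Nat.le_of_mem_primesLE (hPsub hq)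
  obtain ⟨N, hN⟩ : ∃ N, N = ∏ q ∈ P, q := ⟨_, rfl⟩
  have hN0 : 0 < N := by rw [hN]; exact prod_pos (fun q hq => (hP q hq).pos)
  have hNle : N ≤ 2 ^ (2 * t * w) := by
    rw [pow_mul, hw2, hN]
    conv_rhs => rw [← hPcard]
    rw [hPcard]
    nth_rewrite 2 [← hPcard]
    exact Finset.prod_le_pow_card _ _ _ hPle
  obtain ⟨V, hV⟩ : ∃ V, V = 2 ^ h := ⟨_, rfl⟩
  have hU : 2 ^ w = V * V := by rw [hV, ← pow_add, hh]; congr 1; omega
  have hLV : w ^ 6 < V := by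
    rw [← hw6, hV]
    apply Nat.pow_lt_pow_right (by norm_num)
    nlinarith
  have hw1 : 6 ≤ w := by nlinarith
  have hV6 : 6 * w ≤ V := by
    have : w * w ≤ w ^ 6 := by
      rw [← sq]; exact Nat.pow_le_pow_right (by omega) (by norm_num)
    nlinarith
  obtain ⟨m, hm, hm1, hm2⟩ := Nat.exists_prime_lt_and_le_two_mul (2 ^ w) (by positivity)
  set Q := (Nat.primesLE (2 ^ w)).filter (fun q => V ≤ q) with hQ
  have hQc : 2 ^ w ≤ 2 * w * Q.card := by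
    have h1 := pi_lower w
    have h2 : (Nat.primesLE (2 ^ w)).card ≤ Q.card + V := by
      calc _ ≤ (Q ∪ range V).card := by
            apply card_le_card
            intro q hq
            by_cases hqV : V ≤ q
            · exact mem_union_left _ (mem_filter.2 ⟨hq, hqV⟩)
            · exact mem_union_right _ (mem_range.2 (by omega))
        _ ≤ _ := by simpa using card_union_le Q (range V)
    have h3 := Nat.mul_le_mul_left w h2
    have h4 : 6 * w * V ≤ V * V := Nat.mul_le_mul_right _ hV6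
    have h5 : w * 1 ≤ w * V := Nat.mul_le_mul_left _ (by omega)
    nlinarith
  have hinj := prod_injOn P hP
  refine ⟨N ^ 3, m, by positivity, ?_, hm1.le, ?_⟩
  · calc N ^ 3 ≤ (2 ^ (2 * t * w)) ^ 3 := Nat.pow_le_pow_left hNle 3
      _ = _ := by rw [← pow_mul]; congr 1; ring
  rw [hw6]
  refine levels N V (4 * t + 1) (2 ^ w) (2 * w) (18 * t * w) (w ^ 6) m
    (P.powerset.image (fun s : Finset ℕ => ∏ q ∈ s, q))
    ((P.powersetCard 3).image (fun s : Finset ℕ => ∏ q ∈ s, q)) Q hN0 ?_ ?_ ?_ ?_ ?_ hLV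
    (Nat.one_le_pow _ _ (by omega)) hQc (by nlinarith) (by nlinarith) ?_ (by positivity) hm hm1 hm2
    (by rw [hU]; nlinarith)
  · intro d hd
    obtain ⟨s, hs, rfl⟩ := mem_image.1 hd
    rw [hN]
    exact prod_dvd_prod_of_subset _ _ _ (mem_powerset.1 hs)
  · intro d hd
    obtain ⟨s, hs, rfl⟩ := mem_image.1 hd
    rw [mem_powersetCard] at hs
    refine ⟨hN ▸ prod_dvd_prod_of_subset _ _ _ hs.1, ?_⟩
    have := Finset.prod_le_pow_card s (fun q => q) (w ^ 2) (fun q hq => hPle q (hs.1 hq))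
    rw [hs.2, ← pow_mul] at this
    exact this
  · rw [card_image_of_injOn hinj, card_powerset, hPcard]
  · refine lt_of_le_of_lt hNle ?_
    rw [hV, ← pow_mul]
    apply Nat.pow_lt_pow_right (by norm_num)
    rw [hh]; nlinarith
  · intro q hq
    rw [hQ, mem_filter] at hq
    exact ⟨Nat.prime_of_mem_primesLE hq.1, hq.2, Nat.le_of_mem_primesLE hq.1⟩
  · rw [card_image_of_injOn (hinj.mono (by
      intro s hs
      have hs' : s ∈ P.powersetCard 3 := hs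
      exact mem_coe.2 (mem_powerset.2 (mem_powersetCard.1 hs').1))), card_powersetCard, hPcard]
    exact choose_bound t w ht hnum

theorem upper (t : ℕ) (ht : 20 ≤ t) (a b : ℕ) (ha : 0 < a) (hab : a < b) (hb : b ≤ 2 ^ 2 ^ t) :
    UF (500 * t) ((a : ℚ) / b) := by
  obtain ⟨n, m, hn, hnle, hm, H⟩ := digit_system t ht
  have hnum := num_bound t ht
  obtain ⟨w, hw⟩ : ∃ w, w = 2 ^ t := ⟨_, rfl⟩
  rw [← hw] at hnle hm hb hnum
  have hT : n * 2 ^ (6 * t + 4) ≤ 2 ^ (7 * t * w) := by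
    calc n * 2 ^ (6 * t + 4) ≤ 2 ^ (6 * t * w) * 2 ^ (6 * t + 4) := Nat.mul_le_mul_right _ hnle
      _ = 2 ^ (6 * t * w + (6 * t + 4)) := by rw [← pow_add]
      _ ≤ _ := Nat.pow_le_pow_right (by norm_num) (by nlinarith)
  obtain ⟨a', b', c2, c3, c4, c5⟩ := greedy_start (n * 2 ^ (6 * t + 4)) (2 * t) a b ha hab (by
    refine hT.trans (Nat.pow_le_pow_right (by norm_num) ?_)
    have : 2 ^ (2 * t) = w * w := by rw [hw, ← pow_add]; congr 1; ring
    rw [this]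
    apply Nat.mul_le_mul_right
    nlinarith)
  have hm2 : 2 ≤ m := by
    refine le_trans ?_ hm
    calc 2 = 2 ^ 1 := by norm_num
      _ ≤ 2 ^ w := Nat.pow_le_pow_right (by norm_num) (by nlinarith)
  have hbj : b' ≤ m ^ (15 * t) := by
    refine le_trans ?_ (Nat.pow_le_pow_left hm _)
    rcases c4 with c4 | c4
    · exact c4.trans ((Nat.pow_le_pow_left hb 2).trans
        (Nat.pow_le_pow_right (by positivity) (by omega)))
    · calc b' ≤ b * (n * 2 ^ (6 * t + 4)) ^ 2 := c4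
        _ ≤ 2 ^ w * (2 ^ (7 * t * w)) ^ 2 := Nat.mul_le_mul hb (Nat.pow_le_pow_left hT 2)
        _ = 2 ^ (w + 7 * t * w * 2) := by rw [← pow_mul, ← pow_add]
        _ ≤ 2 ^ (w * (15 * t)) := Nat.pow_le_pow_right (by norm_num) (by nlinarith)
        _ = _ := by rw [pow_mul]
  have h1 : 1 ≤ 2 ^ (6 * t) := Nat.one_le_two_pow
  have h2 := assemble m (4 * 2 ^ (6 * t)) n 16 (6 * t + 4) (15 * t) a' b' hm2 hn (by omega) H
    (by rw [pow_add]; omega) c2 c3 hbj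
  refine ((c5.add h2).mono (by omega)).congr ?_
  ring

theorem lower (b : ℕ) (hb : 2 ≤ b) (S : Finset ℕ) (hS : ∀ n ∈ S, 2 ≤ n)
    (h : ∑ n ∈ S, (1 : ℚ) / n = ((b - 1 : ℕ) : ℚ) / b) : b ≤ 2 ^ 2 ^ (2 * S.card + 2) := by
  have h1 := den_bound (S.card + 1) (S.card + 1) (b ::ₘ S.val) (by simp) le_rfl (by
    intro n hn
    rcases Multiset.mem_cons.1 hn with rfl | hn
    · omega
    · have := hS n hn
      omega) 1 one_pos ⟨1, by
    rw [rsum_cons]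
    have e : rsum S.val = ((b - 1 : ℕ) : ℚ) / b := h
    rw [e, Nat.cast_sub (by omega)]
    have : (0 : ℚ) < b := by exact_mod_cast (by omega : 0 < b)
    push_cast
    field_simp
    ring⟩ b (Multiset.mem_cons_self _ _)
  set k := S.card + 1 with hk
  have h2 : k ≤ 2 ^ k := Nat.lt_two_pow_self.le
  calc b ≤ (k * 1) ^ 2 ^ k := h1
    _ ≤ (2 ^ k) ^ 2 ^ k := Nat.pow_le_pow_left (by omega) _
    _ = 2 ^ (k * 2 ^ k) := by rw [← pow_mul]
    _ ≤ 2 ^ (2 ^ k * 2 ^ k) := Nat.pow_le_pow_right (by norm_num) (Nat.mul_le_mul_right _ h2)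
    _ = _ := by rw [← pow_add]; congr 2; omega

end Vale.Agent.P012
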